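import Crest.Agent.X212.Skel83.Top
import Crest.Agent.X212.Pic56.Smo

/-!
# Row 212 (helper38): normalisation of the pair of slopes in `Core`

`core_of : Opp → Sam → Core`, with `p ≥ 1` and `q' < 0 < -q' ≤ q` or `0 ≤ q < q'`.
-/

set_option autoImplicit false
set_option linter.unusedSectionVars false
open Set Filter Topology Function
open scoped Manifold ContDiff

noncomputable section

namespace Crest.Agent.X212.Nrm38

open Crest.GeometryTopology.DehnSurgery Crest.Agent.X212.Ext52 Crest.Agent.X212.Ori83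
open Crest.Agent.X212.Dr59 Crest.Agent.X212.Int54 Crest.Agent.R208 Crest.Agent.X212.Glue52
open Crest.Agent.X212.Skel83

/-- conjugation of the normal coordinate -/
def cj : (Circle × ℂ) ≃ₘ^∞⟮IT, IT⟯ (Circle × ℂ) := coreD 1 (-1) 0 (Or.inl rfl) (Or.inr rfl)

theorem cj_apply (z : Circle × ℂ) : cj z = mon 0 1 (-1) 0 z := rfl

theorem cj_zero (z : Circle × ℂ) : (cj z).2 = 0 ↔ z.2 = 0 := mon_eq_zero _ _ _ _ z

theorem cj_core (u : Circle) : cj (u, 0) = (u, 0) := by simp [cj_apply, mon]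

/-- the same tube with the meridian reversed -/
def mirT (t : Tube) : Tube := ⟨t.τ ∘ cj, ld_comp t.ld cj.isLocalDiffeomorph, t.inj.comp cj.injective⟩

theorem mirT_core (t : Tube) : (mirT t).thick.core = t.thick.core := by
  refine Subset.antisymm ?_ ?_
  · rintro _ ⟨⟨u, w⟩, ⟨-, hw⟩, rfl⟩
    obtain rfl : w = 0 := hw
    exact ⟨(u, 0), ⟨mem_univ _, rfl⟩, (congrArg t.τ (cj_core u)).symm⟩
  · rintro _ ⟨⟨u, w⟩, ⟨-, hw⟩, rfl⟩
    obtain rfl : w = 0 := hw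
    exact ⟨(u, 0), ⟨mem_univ _, rfl⟩, congrArg t.τ (cj_core u)⟩

theorem mirT_ext (t : Tube) : (mirT t).Ext = t.Ext :=
  TopologicalSpace.Opens.ext (congrArg compl (mirT_core t))

/-- the mirror knot datum -/
def mir (k : KD) : KD where
  toTube := mirT k.toTube
  θ x := (k.θ (TopologicalSpace.Opens.inclusion (mirT_ext k.toTube).le x))⁻¹
  smθ := (k.smθ.comp (contMDiff_inclusion _)).inv
  θτ z := by
    have h := k.θτ ⟨cj z.1, mt (cj_zero _).1 z.2⟩
    rw [show TopologicalSpace.Opens.inclusion (mirT_ext k.toTube).le ((mirT k.toTube).τE z) =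
      k.toTube.τE ⟨cj z.1, mt (cj_zero _).1 z.2⟩ from rfl, h]
    show (dir (mon 0 1 (-1) 0 z.1).2)⁻¹ = _
    rw [dir_mon _ _ _ _ z.2]
    simp

theorem mir_unknot {k : KD} (h : (mir k).thick.IsUnknot) : k.thick.IsUnknot :=
  let ⟨δ, h1, h2⟩ := h
  ⟨δ, h1, h2.trans (mirT_core k.toTube)⟩

/-- the slope `(p, -q)` -/
def neg (σ : FillingData) : FillingData := ⟨σ.p, -σ.q, -σ.a, σ.b, by have := σ.det; linarith⟩

/-- the slope `(-p, -q)` -/
def opp (σ : FillingData) : FillingData := ⟨-σ.p, -σ.q, -σ.a, -σ.b, by have := σ.det; linarith⟩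

/-- `K(p/q)` is the filling of the mirror datum along `p/(-q)` -/
def mirRep (t : Tube) (σ : FillingData) : Tube.Rep (mirT t) t (neg σ) σ where
  ψ := cj
  ld := cj.isLocalDiffeomorph
  inj := cj.injective
  zero := cj_zero
  surj u := ⟨(u, 0), cj_core u⟩
  ext := mirT_ext t
  rel z hz := by
    show t.τ (mon 0 1 (-1) 0 (mon (-σ.q) σ.b σ.p (-σ.a) z)) = t.τ (mon _ _ _ _ (mon 0 1 (-1) 0 z))
    rw [mon_mon _ _ _ _ _ _ _ _ hz, mon_mon _ _ _ _ _ _ _ _ hz]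
    simp

theorem posD_symm {t : Tube} {σ σ' : FillingData} (g : Fill t σ ≃ₘ^∞⟮𝓡 3, 𝓡 3⟯ Fill t σ')
    (h : PosD t σ σ' g) : PosD t σ' σ g.symm := by
  intro ρ ρ' hρ hρ' hp y
  have h1 := h ρ' ρ hρ' hρ (fun u => by have := hp u; linarith) (g.symm y)
  have b := det_comp3 g.symm.isLocalDiffeomorph g.isLocalDiffeomorph y
  rw [show (g : _ → _) ∘ g.symm = id from funext g.apply_symm_apply, mf_id,
    show (ContinuousLinearMap.id ℝ E3).det = 1 from LinearMap.det_id] at b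
  rw [Diffeomorph.apply_symm_apply] at h1
  have h2 := mul_pos h1 (mul_self_pos.2 (det_ne_of_ld (d := 2) (g.symm.isLocalDiffeomorph y)))
  generalize (mf (𝓡 3) (𝓡 3) g (g.symm y)).det = A at *
  generalize (mf (𝓡 3) (𝓡 3) g.symm y).det = B at *
  rw [show A * ρ' (g.symm y) * ρ y * (B * B) = B * ρ y * ρ' (g.symm y) * (A * B) by ring, ← b] at h2
  rwa [mul_one] at h2

/-- some orientation preserving diffeomorphism `K(p/q) → K(p/q')`, for all filling data -/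
def Cos (k : KD) (p q q' : ℤ) : Prop :=
  ∀ σ σ' : FillingData, σ.p = p → σ.q = q → σ'.p = p → σ'.q = q' →
    ∃ g : Fill k.toTube σ ≃ₘ^∞⟮𝓡 3, 𝓡 3⟯ Fill k.toTube σ', PosD k.toTube σ σ' g

/-- both slopes are primitive -/
def Prim (p q q' : ℤ) : Prop := IsCoprime p q ∧ IsCoprime p q'

theorem cos_of {k : KD} {σ σ' : FillingData} (g : Fill k.toTube σ ≃ₘ^∞⟮𝓡 3, 𝓡 3⟯ Fill k.toTube σ')
    (h : PosD k.toTube σ σ' g) {p q q' ε ε' : ℤ} (hε : ε = 1 ∨ ε = -1) (hε' : ε' = 1 ∨ ε' = -1)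
    (h1 : p = ε * σ.p) (h2 : q = ε * σ.q) (h3 : p = ε' * σ'.p) (h4 : q' = ε' * σ'.q) :
    Cos k p q q' := fun s s' a b c d =>
  ⟨_, posD_rep (k.toTube.signRep s σ hε (a.trans h1) (b.trans h2))
    (k.toTube.signRep s' σ' hε' (c.trans h3) (d.trans h4)) g h⟩

theorem Cos.symm {k : KD} {p q q' : ℤ} (h : Cos k p q q') : Cos k p q' q := fun s s' a b c d =>
  let ⟨g, hg⟩ := h s' s c d a b
  ⟨g.symm, posD_symm g hg⟩

theorem neg_neg' (σ : FillingData) : neg (neg σ) = σ := by cases σ; simp [neg]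

theorem Cos.mir {k : KD} {p q q' : ℤ} (h : Cos k p q q') : Cos (mir k) p (-q) (-q') := by
  intro s s' a b c d
  obtain ⟨g, hg⟩ := h (neg s) (neg s') a (by simp [neg, b]) c (by simp [neg, d])
  rw [← neg_neg' s, ← neg_neg' s']
  exact ⟨_, posD_rep (mirRep _ _) (mirRep _ _) g hg⟩

theorem coprime (σ : FillingData) : IsCoprime σ.p σ.q := ⟨-σ.b, σ.a, by have := σ.det; linarith⟩

/-- filling data for a primitive slope -/
theorem exists_data {p q : ℤ} (h : IsCoprime p q) : ∃ σ : FillingData, σ.p = p ∧ σ.q = q :=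
  let ⟨u, v, e⟩ := h
  ⟨⟨p, q, v, -u, by linarith⟩, rfl, rfl⟩

/-- opposite signs: `p/q` and `-p/s`, `0 < s ≤ q` -/
def Opp (p : ℤ) : Prop :=
  ∀ k : KD, ¬ k.thick.IsUnknot → ∀ q s : ℤ, 0 < s → s ≤ q → Prim p q (-s) → ¬ Cos k p q (-s)

/-- same sign (or the meridian, `p = 1`, `q = 0`): `p/q` and `p/q'`, `0 ≤ q < q'` -/
def Sam (p : ℤ) : Prop :=
  ∀ k : KD, ¬ k.thick.IsUnknot → ∀ q q' : ℤ, 0 ≤ q → q < q' → Prim p q q' → ¬ Cos k p q q'

theorem eq_of_cos {p : ℤ} (h1 : Opp p) (h2 : Sam p) {k : KD} (hk : ¬ k.thick.IsUnknot) {q q' : ℤ}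
    (hp : Prim p q q') (h : Cos k p q q') : q = q' := by
  have hk' : ¬ (mir k).thick.IsUnknot := mt mir_unknot hk
  have key : ∀ q q', Prim p q q' → Cos k p q q' → ¬ q < q' := fun q q' hp h hlt => by
    have hn : Prim p (-q') (-q) := ⟨hp.2.neg_right, hp.1.neg_right⟩
    rcases le_or_gt 0 q with a | a
    · exact h2 k hk q q' a hlt hp h
    rcases le_or_gt q' 0 with b | b
    · exact h2 _ hk' (-q') (-q) (by omega) (by omega) hn h.symm.mir
    rcases le_total (-q) q' with c | c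
    · exact h1 k hk q' (-q) (by omega) c (by simpa using ⟨hp.2, hp.1⟩) (by simpa using h.symm)
    · exact h1 _ hk' (-q) q' b c ⟨hn.2, hn.1⟩ h.mir
  exact le_antisymm (not_lt.1 (key _ _ ⟨hp.2, hp.1⟩ h.symm)) (not_lt.1 (key _ _ hp h))

theorem core_of (h1 : ∀ p, 1 ≤ p → Opp p) (h2 : ∀ p, 1 ≤ p → Sam p) : Core := by
  intro k hk σ σ' g hg
  have e := Pic56.natAbs_eq (k := k) (k' := k) g.toHomeomorph
  have c := coprime σ
  have c' := coprime σ'
  rcases eq_or_ne σ.p 0 with z | z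
  · have z' : σ'.p = 0 := by omega
    rw [z, isCoprime_zero_left, Int.isUnit_iff] at c
    rw [z', isCoprime_zero_left, Int.isUnit_iff] at c'
    unfold Same
    omega
  obtain ⟨ε, hε, hp⟩ : ∃ ε : ℤ, (ε = 1 ∨ ε = -1) ∧ (σ.p.natAbs : ℤ) = ε * σ.p :=
    (le_total 0 σ.p).elim (fun _ => ⟨1, Or.inl rfl, by omega⟩) fun _ => ⟨-1, Or.inr rfl, by omega⟩
  obtain ⟨ε', hε', hp'⟩ : ∃ ε : ℤ, (ε = 1 ∨ ε = -1) ∧ (σ.p.natAbs : ℤ) = ε * σ'.p :=
    (le_total 0 σ'.p).elim (fun _ => ⟨1, Or.inl rfl, by omega⟩) fun _ => ⟨-1, Or.inr rfl, by omega⟩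
  have u : ∀ {ε : ℤ}, ε = 1 ∨ ε = -1 → ∀ {a b : ℤ}, IsCoprime a b → IsCoprime (ε * a) (ε * b) := by
    rintro _ (rfl | rfl) a b h
    · simpa using h
    · simpa using h.neg_neg
  have := eq_of_cos (h1 σ.p.natAbs (by omega)) (h2 _ (by omega)) hk
    ⟨hp ▸ u hε c, hp' ▸ u hε' c'⟩ (cos_of g hg hε hε' hp rfl hp' rfl)
  unfold Same
  rcases hε with rfl | rfl <;> rcases hε' with rfl | rfl <;> omega

end Crest.Agent.X212.Nrm38

end
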